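import Mathlib

/-! P275, lowest degree (helper907 for helper912): ROW C. -/

set_option autoImplicit false

namespace Vale.Agent.P275.R2.H907

open Filter Topology Asymptotics

theorem prod_eq (d : ℕ) {z : ℂ} (hz : z ≠ 0) (k : ℕ) :
    ∏ i ∈ Finset.range k, ((z ^ d) ^ (i + 1) - 1) =
      z ^ (d * (k * (k + 1) / 2)) * ∏ i ∈ Finset.range k, (1 - (z⁻¹) ^ (d * (i + 1))) := by
  induction k with
  | zero => simp
  | succ k ih =>
    rw [Finset.prod_range_succ, ih, Finset.prod_range_succ]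
    have e : (k + 1) * (k + 1 + 1) / 2 = k * (k + 1) / 2 + (k + 1) := by
      have : (k + 1) * (k + 1 + 1) = k * (k + 1) + 2 * (k + 1) := by ring
      rw [this, Nat.add_mul_div_left _ _ (by norm_num)]
    have h1 : (z ^ d) ^ (k + 1) - 1 = z ^ (d * (k + 1)) * (1 - z⁻¹ ^ (d * (k + 1))) := by
      rw [mul_sub, mul_one, ← mul_pow, mul_inv_cancel₀ hz, one_pow, pow_mul]
    rw [h1, e, Nat.mul_add d (k * (k + 1) / 2) (k + 1), pow_add]
    ring

theorem prod_deriv {d : ℕ} (hd : 1 ≤ d) (k : ℕ) :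
    HasDerivAt (fun y : ℂ => ∏ i ∈ Finset.range k, (1 - y ^ (d * (i + 1))))
      (if d = 1 ∧ 1 ≤ k then -1 else 0) 0 := by
  induction k with
  | zero => simpa using hasDerivAt_const (0 : ℂ) (1 : ℂ)
  | succ k ih =>
    have h1 : HasDerivAt (fun y : ℂ => 1 - y ^ (d * (k + 1)))
        (-(((d * (k + 1) : ℕ) : ℂ) * 0 ^ (d * (k + 1) - 1))) 0 :=
      (hasDerivAt_pow (d * (k + 1)) (0 : ℂ)).const_sub 1
    have h2 := ih.mul h1
    have h0 : ∏ i ∈ Finset.range k, (1 - (0 : ℂ) ^ (d * (i + 1))) = 1 := by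
      refine Finset.prod_eq_one fun i _ => ?_
      rw [zero_pow (by positivity), sub_zero]
    rw [h0] at h2
    have h3 : (fun y : ℂ => ∏ i ∈ Finset.range (k + 1), (1 - y ^ (d * (i + 1)))) =
        (fun y : ℂ => ∏ i ∈ Finset.range k, (1 - y ^ (d * (i + 1)))) *
          fun y : ℂ => 1 - y ^ (d * (k + 1)) := by
      funext y
      rw [Finset.prod_range_succ]
      rfl
    rw [h3]
    refine h2.congr_deriv ?_
    rw [zero_pow (by positivity : d * (k + 1) ≠ 0)]
    by_cases hd1 : d = 1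
    · subst hd1
      rcases Nat.eq_zero_or_pos k with rfl | hk
      · simp
      · have : 1 * (k + 1) - 1 ≠ 0 := by omega
        rw [zero_pow this]
        simp [show 1 ≤ k from hk]
    · have : d * (k + 1) - 1 ≠ 0 := by
        have : 2 ≤ d := by omega
        have : 2 * 1 ≤ d * (k + 1) := Nat.mul_le_mul this (by omega)
        omega
      rw [zero_pow this]
      simp [hd1]

/-- ROW C (elementary limit). -/
theorem rowC {k d : ℕ} (hk : 1 ≤ k) (hd : 1 ≤ d) (N : ℕ) :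
    Tendsto (fun x : ℝ => (x : ℂ) * ((∏ i ∈ Finset.range k, (((x : ℂ) ^ d) ^ (i + 1) - 1)) ^ N /
      (x : ℂ) ^ (d * N * (k * (k + 1) / 2)) - 1)) atTop
      (𝓝 (if d = 1 then -(N : ℂ) else 0)) := by
  have h1 := (prod_deriv hd k).pow N
  have h0 : ∏ i ∈ Finset.range k, (1 - (0 : ℂ) ^ (d * (i + 1))) = 1 := by
    refine Finset.prod_eq_one fun i _ => ?_
    rw [zero_pow (by positivity), sub_zero]
  rw [h0, one_pow, mul_one] at h1
  rw [hasDerivAt_iff_tendsto_slope] at h1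
  have h2 : Tendsto (fun x : ℝ => ((x : ℂ))⁻¹) atTop (𝓝[≠] 0) := by
    rw [tendsto_nhdsWithin_iff]
    constructor
    · have h3 : Tendsto (fun x : ℝ => ((x⁻¹ : ℝ) : ℂ)) atTop (𝓝 ((0 : ℝ) : ℂ)) :=
        (Complex.continuous_ofReal.tendsto 0).comp tendsto_inv_atTop_zero
      simpa using h3
    · filter_upwards [eventually_gt_atTop 0] with x hx
      simp [hx.ne']
  have h3 := h1.comp h2
  have h4 : ((N : ℂ) * if d = 1 ∧ 1 ≤ k then -1 else 0) = if d = 1 then -(N : ℂ) else 0 := by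
    by_cases hd1 : d = 1 <;> simp [hd1, hk]
  rw [h4] at h3
  refine h3.congr' ?_
  filter_upwards [eventually_gt_atTop 0] with x hx
  have hz : (x : ℂ) ≠ 0 := by exact_mod_cast hx.ne'
  simp only [Function.comp, slope, vsub_eq_sub, sub_zero, smul_eq_mul, Pi.pow_apply]
  rw [inv_inv, prod_eq d hz k, h0, one_pow, mul_pow, ← pow_mul]
  congr 2
  rw [show d * (k * (k + 1) / 2) * N = d * N * (k * (k + 1) / 2) by ring]
  rw [mul_div_cancel_left₀ _ (pow_ne_zero _ hz)]

end Vale.Agent.P275.R2.H907
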